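import Vale.Agent.P260.LM.Final

/-!
Closed aspherical 4-manifolds with amenable, residually finite fundamental group: the fundamental
group is virtually poly-`ℤ`.
-/

namespace Vale.Agent.Results.P260.AmenablePolyZ

open Vale.Agent.P260 Vale.Agent.P260.LM

/-- `M` is a closed topological 4-manifold, `X` is a contractible regular covering of it with deck
group `Γ`, so that `Γ` is the fundamental group of `M`. If `Γ` satisfies Følner's condition and is
residually finite, then `Γ` has a subgroup `K` of finite index and subgroups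
`1 = N 0 ≤ N 1 ≤ N 2 ≤ N 3 ≤ N 4 = K`, each normal in the next one with quotient isomorphic
to `ℤ`. -/
theorem result {M X Γ : Type} [TopologicalSpace M] [T2Space M] [CompactSpace M]
    [ChartedSpace (EuclideanSpace ℝ (Fin 4)) M] [TopologicalSpace X] [ContractibleSpace X]
    [Group Γ] [MulAction Γ X] [ContinuousConstSMul Γ X] (p : X → M)
    (hp : IsQuotientCoveringMap p Γ) (hF : Folner Γ) (hres : ResFin Γ) :
    ∃ K : Subgroup Γ, K.FiniteIndex ∧ ∃ N : ℕ → Subgroup Γ, N 0 = ⊥ ∧ N 4 = K ∧
      ∀ i < 4, N i ≤ N (i + 1) ∧ ∃ _ : ((N i).subgroupOf (N (i + 1))).Normal,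
        Nonempty (Multiplicative ℤ ≃* (N (i + 1) ⧸ (N i).subgroupOf (N (i + 1)))) :=
  polyZ_of_amenable p hp hF hres

end Vale.Agent.Results.P260.AmenablePolyZ
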