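import Vale.Agent.P188.R.G115
import Vale.Agent.P188.R.G116
import Vale.Agent.P239.Bdl.B9

/-!
Closed aspherical 4-manifolds whose fundamental group is quasi-isometric to a virtually
polycyclic group have torsion-free, virtually poly-`ℤ` fundamental groups.
-/

set_option linter.all false

open MeasureTheory Set

universe u v w x

namespace Vale.Agent.Results.P260.QIPolycyclic

open Vale.Agent.P188

/-- A group is poly-`ℤ` if it has a finite subnormal series with infinite cyclic quotients. -/
def IsPolyZ (G : Type*) [Group G] : Prop :=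
  ∃ (m : ℕ) (s : ℕ → Subgroup G), s 0 = ⊥ ∧ s m = ⊤ ∧
    ∀ i < m, s i ≤ s (i + 1) ∧ ∃ _ : ((s i).subgroupOf (s (i + 1))).Normal,
      Nonempty (Multiplicative ℤ ≃* (s (i + 1) ⧸ (s i).subgroupOf (s (i + 1))))

/-- `FLATG` holds in all real models. -/
theorem flatgAll : H789.FlatgAll := by
  intro Γ _ k η d n D hη F t M B hD hk
  exact M.flatg_holds B hD.fine

variable {G : Type u} [Group G]

/-- The quotient of a step of infinite order. -/
theorem infCyc {N M : Subgroup G} {t : G} (hs : CycStep N M t) (ht : ∀ k : ℤ, t ^ k ∈ N → k = 0) :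
    N ≤ M ∧ ∃ _ : (N.subgroupOf M).Normal,
      Nonempty (Multiplicative ℤ ≃* (M ⧸ N.subgroupOf M)) := by
  have hn : (N.subgroupOf M).Normal := by
    constructor
    intro n hn g
    exact hs.normal g.2 hn
  refine ⟨hs.le, hn, ⟨MulEquiv.ofBijective
    (zpowersHom (M ⧸ N.subgroupOf M) (QuotientGroup.mk ⟨t, hs.mem⟩)) ⟨?_, ?_⟩⟩⟩
  · rw [injective_iff_map_eq_one]
    intro k hk
    rw [zpowersHom_apply, ← QuotientGroup.mk_zpow, QuotientGroup.eq_one_iff,
      Subgroup.mem_subgroupOf] at hk
    have h1 := ht _ (by simpa using hk)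
    exact Multiplicative.toAdd.injective h1
  · intro q
    obtain ⟨g, rfl⟩ := QuotientGroup.mk_surjective q
    obtain ⟨k, hk⟩ := hs.dec g g.2
    refine ⟨Multiplicative.ofAdd k, ?_⟩
    rw [zpowersHom_apply, toAdd_ofAdd, ← QuotientGroup.mk_zpow, QuotientGroup.eq]
    simpa [Subgroup.mem_subgroupOf] using hk

/-- The series of a poly-`ℤ` subgroup. -/
theorem pzs_series {M : Subgroup G} (h : PZS M) :
    ∃ (m : ℕ) (s : ℕ → Subgroup G), s 0 = ⊥ ∧ s m = M ∧ (∀ i ≤ m, s i ≤ M) ∧
    ∀ i < m, ∃ t, CycStep (s i) (s (i + 1)) t ∧ ∀ k : ℤ, t ^ k ∈ s i → k = 0 := by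
  induction h with
  | bot => exact ⟨0, fun _ => ⊥, rfl, rfl, fun _ _ => le_rfl, fun i hi => absurd hi (by omega)⟩
  | @step N M t _ hs ht ih =>
    obtain ⟨m, s, h0, hm, hle, hser⟩ := ih
    refine ⟨m + 1, fun i => if i ≤ m then s i else M, by simp [h0], by simp, ?_, ?_⟩
    · intro i hi
      by_cases h : i ≤ m
      · simp only [if_pos h]
        exact (hle i h).trans hs.le
      · simp only [if_neg h]
        exact le_rfl
    intro i hi
    rcases Nat.lt_or_ge i m with h | h
    · have h1 : i ≤ m := h.le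
      have h2 : i + 1 ≤ m := h
      have e1 : (if i ≤ m then s i else M) = s i := if_pos h1
      have e2 : (if i + 1 ≤ m then s (i + 1) else M) = s (i + 1) := if_pos h2
      simp only [e1, e2]
      exact hser i h
    · obtain rfl : i = m := by omega
      have h2 : ¬ (i + 1 ≤ i) := by omega
      have e1 : (if i ≤ i then s i else M) = N := by rw [if_pos le_rfl, hm]
      have e2 : (if i + 1 ≤ i then s (i + 1) else M) = M := if_neg h2
      simp only [e1, e2]
      exact ⟨t, hs, ht⟩

/-- Subgroups built by poly-`ℤ` steps are poly-`ℤ`. -/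
theorem isPolyZ_of_pzs {M : Subgroup G} (h : PZS M) : IsPolyZ M := by
  obtain ⟨m, s, h0, hm, hle, hser⟩ := pzs_series h
  refine ⟨m, fun i => (s i).subgroupOf M, by simp [h0], by simp [hm], fun i hi => ?_⟩
  obtain ⟨t, ht, hk⟩ := hser i hi
  have htM : t ∈ M := hle (i + 1) hi ht.mem
  refine infCyc (t := (⟨t, htM⟩ : M)) ⟨?_, ?_, ?_, ?_, ?_⟩ ?_
  · exact fun g hg => ht.le hg
  · exact ht.mem
  · exact fun n hn => ht.conj n hn
  · exact fun n hn => ht.conj' n hn
  · intro g hg
    obtain ⟨k, hk⟩ := ht.dec g hg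
    exact ⟨k, by simpa [Subgroup.mem_subgroupOf] using hk⟩
  · intro k hk'
    exact hk k (by simpa [Subgroup.mem_subgroupOf] using hk')

/-- Virtually polycyclic groups are virtually poly-`ℤ`. -/
theorem exists_polyZ (h : IsVirtuallyPolycyclic G) :
    ∃ P : Subgroup G, P.FiniteIndex ∧ IsPolyZ P := by
  obtain ⟨P, hP, hpc⟩ := isVirtuallyPolycyclic_iff.1 h
  obtain ⟨Q, hQP, hQ, hind⟩ := hpc.exists_pzs
  refine ⟨Q, ⟨?_⟩, isPolyZ_of_pzs hQ⟩
  intro h0
  have h1 := Subgroup.relIndex_mul_index hQP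
  rw [h0] at h1
  rcases Nat.mul_eq_zero.1 h1 with h2 | h2
  · exact hind h2
  · exact hP.index_ne_zero h2

/-- Let `M` be a closed aspherical 4-manifold: compact Hausdorff, locally Euclidean of dimension
four, with a contractible universal cover `p : X → M` with group of deck transformations `Γ`
(the fundamental group of `M`). If `Γ` is quasi-isometric to a virtually polycyclic group then `Γ`
is torsion-free and virtually poly-`ℤ`. -/
theorem result {M : Type u} {X : Type v} {Γ : Type w} {G : Type x}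
    [TopologicalSpace M] [T2Space M] [CompactSpace M] [ChartedSpace (EuclideanSpace ℝ (Fin 4)) M]
    [TopologicalSpace X] [ContractibleSpace X] [Group Γ] [MulAction Γ X]
    (p : X → M) (hp : IsQuotientCoveringMap p Γ)
    [Group G] (hG : IsVirtuallyPolycyclic G) (hQ : QuasiIsometric Γ G) :
    (∀ g : Γ, g ≠ 1 → ∀ n : ℕ, n ≠ 0 → g ^ n ≠ 1) ∧
      ∃ P : Subgroup Γ, P.FiniteIndex ∧ IsPolyZ P := by
  refine ⟨?_, exists_polyZ (H789.rigidity_of_flatg flatgAll hG hQ)⟩
  have : LocallyCompactSpace M := ChartedSpace.locallyCompactSpace (EuclideanSpace ℝ (Fin 4)) M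
  have : LocallyCompactSpace X := Vale.Agent.P239.locallyCompact_of_cover hp
  exact Vale.Agent.P239.TF.torsion_free hp

end Vale.Agent.Results.P260.QIPolycyclic
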